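import Crest.Agent.N218.Al.Orb

/-!
# Row 218 (helper23): presentations of the K-rings, lifts to series, the invariant `Phi`
-/

set_option autoImplicit false

open PowerSeries Finset

noncomputable section

namespace Crest.Agent.N218.Al

/-- `K = R[X] / ((1 - X) ^ M, 1 - X ^ q)` with `X ↦ l` -/
def Pz {R K : Type*} [CommRing R] [CommRing K] (i : R →+* K) (l : K) (M q : ℕ) : Prop :=
  (∀ y, ∃ p : Polynomial R, p.eval₂ i l = y) ∧ ∀ p : Polynomial R, p.eval₂ i l = 0 →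
    ∃ a b, p = (1 - Polynomial.X) ^ M * a + (1 - Polynomial.X ^ q) * b

section pz
variable {R K D : Type*} [CommRing R] [CommRing K] [CommRing D] {i : R →+* K} {l : K} {M q : ℕ}

theorem Pz.diff (h : Pz i l M q) (f : R →+* D) (y : D) {p p' : Polynomial R}
    (e : p.eval₂ i l = p'.eval₂ i l) : ∃ a b : Polynomial R,
      p.eval₂ f y = p'.eval₂ f y + (1 - y) ^ M * a.eval₂ f y + (1 - y ^ q) * b.eval₂ f y := by
  obtain ⟨a, b, k⟩ := h.2 (p - p') (by rw [Polynomial.eval₂_sub, e, sub_self])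
  refine ⟨a, b, ?_⟩
  have := congrArg (Polynomial.eval₂RingHom f y) k
  simp only [map_sub, map_add, map_mul, map_pow, map_one, Polynomial.coe_eval₂RingHom,
    Polynomial.eval₂_X] at this
  linear_combination this

theorem Pz.lift (h : Pz i l M q) (f : R →+* D) (y : D) (h1 : (1 - y) ^ M = 0) (h2 : y ^ q = 1) :
    ∃ g : K →+* D, (∀ x, g (i x) = f x) ∧ g l = y := by
  have hs : Function.Surjective (Polynomial.eval₂RingHom i l) := h.1
  have hk : RingHom.ker (Polynomial.eval₂RingHom i l) ≤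
      RingHom.ker (Polynomial.eval₂RingHom f y) := fun p hp => by
    obtain ⟨a, b, k⟩ := h.diff f y (p := p) (p' := 0) (by simpa using hp)
    simpa [h1, h2] using k
  have e := RingHom.liftOfSurjective_comp_apply _ hs ⟨_, hk⟩
  exact ⟨_, fun x => by simpa using e (Polynomial.C x), by simpa using e Polynomial.X⟩

theorem ev_mem (O : Subring D) {f : R →+* D} {y : D} (hf : ∀ x, f x ∈ O) (hy : y ∈ O)
    (p : Polynomial R) : p.eval₂ f y ∈ O := by
  rw [Polynomial.eval₂_eq_sum_range]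
  exact O.sum_mem fun n _ => O.mul_mem (hf _) (O.pow_mem hy n)

theorem Pz.mem (h : Pz i l M q) (O : Subring D) (g : K →+* D) (hf : ∀ x, g (i x) ∈ O)
    (hy : g l ∈ O) (y : K) : g y ∈ O := by
  obtain ⟨p, rfl⟩ := h.1 y
  rw [Polynomial.hom_eval₂]
  exact ev_mem O hf hy p

end pz

/-! ## series -/

theorem O2_cases {c : ℚ} (h : c ∈ O2) : ∃ m ∈ O2, c = 2 * m ∨ c = 2 * m + 1 := by
  have hd : Odd (c.den : ℤ) := by exact_mod_cast mem_O2.1 h
  have d0 : (c.den : ℚ) ≠ 0 := by exact_mod_cast c.den_ne_zero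
  have e : c * c.den = c.num := Rat.mul_den_eq_num c
  rcases Int.even_or_odd c.num with ⟨n, hn⟩ | hn
  · refine ⟨(n : ℚ) / (c.den : ℤ), div_mem n hd, .inl ?_⟩
    have : (c.num : ℚ) = n + n := by exact_mod_cast hn
    push_cast; field_simp; linear_combination e + this
  · obtain ⟨n, hn⟩ := hn.sub_odd hd
    refine ⟨(n : ℚ) / (c.den : ℤ), div_mem n hd, .inr ?_⟩
    have : (c.num : ℚ) - c.den = n + n := by exact_mod_cast hn
    push_cast; field_simp; linear_combination e + this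

theorem odd_inv {m : ℚ} (h : m ∈ O2) : ∃ y ∈ O2, (2 * m + 1) * y = 1 := by
  have hd : Odd (m.den : ℤ) := by exact_mod_cast mem_O2.1 h
  have e : m * m.den = m.num := Rat.mul_den_eq_num m
  have o : Odd (2 * m.num + m.den) := (even_two_mul _).add_odd hd
  have o0 : ((2 * m.num + m.den : ℤ) : ℚ) ≠ 0 := by
    intro k
    have : 2 * m.num + m.den = 0 := by exact_mod_cast k
    rw [this] at o; simp at o
  refine ⟨((m.den : ℤ) : ℚ) / (2 * m.num + m.den : ℤ), div_mem _ o, ?_⟩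
  field_simp; push_cast; linear_combination 2 * e

theorem odd_of_mul {c c' : ℚ} (h : c ∈ O2) (h' : c' ∈ O2) (e : c * c' = 1) :
    ∃ m ∈ O2, c = 2 * m + 1 := by
  obtain ⟨m, hm, k | k⟩ := O2_cases h
  · exact absurd (show (1 / 2 : ℚ) ∈ O2 by
      rw [show (1 / 2 : ℚ) = m * c' by rw [k] at e; linear_combination -e / 2]
      exact O2.mul_mem hm h') half_not_mem
  · exact ⟨m, hm, k⟩

/-- units of `OS` -/
def UO (s : S) : Prop := s ∈ OS ∧ ∃ s' ∈ OS, s * s' = 1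

theorem uo_of {s : S} (h : s ∈ OS) {m : ℚ} (hm : m ∈ O2) (e : constantCoeff s = 2 * m + 1) :
    UO s := by
  obtain ⟨y, hy, k⟩ := odd_inv hm
  let g : PowerSeries O2 := mk fun n => ⟨coeff n s, h n⟩
  have eg : map O2.subtype g = s := by ext n; simp [g]
  have : IsUnit g := isUnit_iff_constantCoeff.2 (IsUnit.of_mul_eq_one (⟨y, hy⟩ : O2) (by
    apply Subtype.ext
    change coeff 0 s * y = 1
    rw [coeff_zero_eq_constantCoeff_apply, e, k]))
  obtain ⟨g', k'⟩ := this.exists_right_inv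
  refine ⟨h, map O2.subtype g', fun n => by rw [coeff_map]; exact (coeff n g').2, ?_⟩
  rw [← eg, ← map_mul, k', map_one]

theorem cc_mem {s : S} (h : s ∈ OS) : constantCoeff s ∈ O2 := by
  rw [← coeff_zero_eq_constantCoeff_apply]; exact h 0

theorem UO.odd {s : S} (h : UO s) : ∃ m ∈ O2, constantCoeff s = 2 * m + 1 := by
  obtain ⟨h, s', h', e⟩ := h
  exact odd_of_mul (cc_mem h) (cc_mem h') (by rw [← map_mul, e, map_one])

theorem UO.mul {s s' : S} (h : UO s) (h' : UO s') : UO (s * s') := by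
  obtain ⟨h, a, ha, e⟩ := h
  obtain ⟨h', b, hb, e'⟩ := h'
  exact ⟨OS.mul_mem h h', a * b, OS.mul_mem ha hb, by linear_combination s' * b * e + e'⟩

theorem uo_one : UO 1 := ⟨OS.one_mem, 1, OS.one_mem, mul_one 1⟩

theorem UO.pow {s : S} (h : UO s) (n : ℕ) : UO (s ^ n) := by
  induction n with
  | zero => simpa using uo_one
  | succ n ih => rw [pow_succ]; exact ih.mul h

theorem UO.congr {s s' : S} (h : UO s) (h' : s' ∈ OS) (e : constantCoeff s' = constantCoeff s) :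
    UO s' := let ⟨_, hm, k⟩ := h.odd; uo_of h' hm (e.trans k)

theorem uo_rho (n : ℕ) : UO (1 + L ^ n + L ^ (2 * n)) :=
  uo_of (OS.add_mem (OS.add_mem OS.one_mem (OS.pow_mem L_mem _)) (OS.pow_mem L_mem _))
    O2.one_mem (by simp [cc_L]; norm_num)

theorem uo_r : UO r := by simpa [r_eq] using uo_rho 1

theorem shift_mem {n : ℕ} {h : S} (k : t ^ n * h ∈ OS) : h ∈ OS := fun j => by
  rw [← co_shift j n]; exact k _

theorem ps_mem {h : S} (k : h ∈ OS) : ps h ∈ OS := fun n => by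
  have : ps h = subst (t * r) h := by simp [ps, coe_substAlgHom]
  rw [this, coeff_subst' hs]
  exact finsum_induction (· ∈ O2) O2.zero_mem (fun _ _ => O2.add_mem) fun d =>
    O2.mul_mem (k d) (OS.pow_mem (OS.mul_mem t_mem r_mem) d n)

theorem exists_t (h : S) : ∃ h', h = C (constantCoeff h) + t * h' :=
  ⟨mk fun n => coeff (n + 1) h, by rw [add_comm]; exact eq_X_mul_shift_add_const h⟩

theorem cc_ps (h : S) : constantCoeff (ps h) = constantCoeff h := by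
  obtain ⟨h', e⟩ := exists_t h
  conv_lhs => rw [e]
  simp [ps_C, ps_t, cc_t]

theorem ps_N (q : ℕ) : ∃ c ∈ OS, ps (N L q) = N L q * c := by
  obtain ⟨-, r', hr, e⟩ := uo_r
  refine ⟨(1 + L ^ q + L ^ (2 * q)) * r', OS.mul_mem (uo_rho q).1 hr, ?_⟩
  have k := congrArg ps (t_N q)
  rw [map_mul, ps_t, map_sub, map_one, map_pow, ps_L'] at k
  apply mul_left_cancel₀ t_ne
  have k2 := t_N q
  linear_combination r' * k - t * ps (N L q) * e - (1 + L ^ q + L ^ (2 * q)) * r' * k2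

/-- negligible series -/
def Ng (q : ℕ) (s : S) : Prop := ∃ b : S, ∃ c ∈ OS, s = t ^ 6 * b + N L q * c

theorem Ng.add {q : ℕ} {s s' : S} (h : Ng q s) (h' : Ng q s') : Ng q (s + s') := by
  obtain ⟨b, c, hc, rfl⟩ := h
  obtain ⟨b', c', hc', rfl⟩ := h'
  exact ⟨b + b', c + c', OS.add_mem hc hc', by ring⟩

theorem Ng.mul {q : ℕ} {s a : S} (h : Ng q s) (ha : a ∈ OS) : Ng q (a * s) := by
  obtain ⟨b, c, hc, rfl⟩ := h
  exact ⟨a * b, a * c, OS.mul_mem ha hc, by ring⟩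

theorem Ng.ps {q : ℕ} {s : S} (h : Ng q s) : Ng q (ps s) := by
  obtain ⟨b, c, hc, rfl⟩ := h
  obtain ⟨d, hd, e⟩ := ps_N q
  exact ⟨r ^ 6 * Al.ps b, d * Al.ps c, OS.mul_mem hd (ps_mem hc), by
    rw [map_add, map_mul, map_mul, map_pow, ps_t, e]; ring⟩

theorem ng_rel {q M : ℕ} (hM : 6 ≤ M) (b : S) {c : S} (hc : c ∈ OS) :
    Ng q (t ^ M * b + (1 - L ^ q) * c) := by
  obtain ⟨n, rfl⟩ := Nat.exists_eq_add_of_le hM
  exact ⟨t ^ n * b, t * c, OS.mul_mem t_mem hc, by rw [← t_N]; ring⟩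

theorem Ng.ph {q : ℕ} (hq : 256 ∣ q) {s : S} (h : Ng q s) : ph s ∈ O2 := by
  obtain ⟨b, c, hc, rfl⟩ := h
  obtain ⟨a, ha, d, hd, e⟩ := one_256 hq
  have e1 : t * (N L q + t ^ 6 * d) = -64 * a := by rw [mul_add, t_N, e]; ring
  obtain ⟨a', e2⟩ := exists_t a
  have c0 : constantCoeff a = 0 := by
    have := congrArg constantCoeff e1
    simpa [cc_t, map_ofNat] using this
  rw [c0, map_zero, zero_add] at e2
  have ha' : a' ∈ OS := shift_mem (n := 1) (by rwa [pow_one, ← e2])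
  have e3 : N L q = -64 * a' - t ^ 6 * d :=
    mul_left_cancel₀ t_ne (by rw [e2] at e1; linear_combination e1)
  rw [e3, show t ^ 6 * b + (-64 * a' - t ^ 6 * d) * c = t ^ 6 * (b - d * c) + 32 * (-2 * a' * c) by
    ring, map_add, ph_t6, zero_add]
  exact ph_32 (OS.mul_mem (OS.mul_mem (OS.neg_mem (ofNat_mem OS 2)) ha') hc)

/-- series with `φ = 1 / 2` -/
def Hs (q : ℕ) (s : S) : Prop :=
  ∃ h ∈ OS, (∃ m ∈ O2, constantCoeff h = 8 * m + 4) ∧ Ng q (s - t ^ 4 * h)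
/-- series with `φ = 0` -/
def Zs (q : ℕ) (s : S) : Prop := ∃ h ∈ OS, Ng q (s - t ^ 5 * h)

theorem Hs.ph {q : ℕ} (hq : 256 ∣ q) {s : S} (h : Hs q s) : ph s - 1 / 2 ∈ O2 := by
  obtain ⟨h, hh, ⟨m, hm, e⟩, k⟩ := h
  have := O2.add_mem (k.ph hq) (ph_t4 hh hm (by simpa using e))
  rwa [map_sub, sub_add_sub_cancel] at this

theorem Zs.ph {q : ℕ} (hq : 256 ∣ q) {s : S} (h : Zs q s) : ph s ∈ O2 := by
  obtain ⟨h, hh, k⟩ := h
  have := O2.add_mem (k.ph hq) (ph_t5 hh)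
  rwa [map_sub, sub_add_cancel] at this

theorem Hs.mul {q : ℕ} {s a : S} (h : Hs q s) (ha : UO a) : Hs q (a * s) := by
  obtain ⟨h, hh, ⟨m, hm, e⟩, k⟩ := h
  obtain ⟨n, hn, e'⟩ := ha.odd
  refine ⟨a * h, OS.mul_mem ha.1 hh, ⟨(2 * n + 1) * m + n, O2.add_mem (O2.mul_mem (O2.add_mem
    (O2.mul_mem (ofNat_mem O2 2) hn) O2.one_mem) hm) hn, by rw [map_mul, e, e']; ring⟩, ?_⟩
  convert k.mul ha.1 using 1; ring

theorem Zs.mul {q : ℕ} {s a : S} (h : Zs q s) (ha : a ∈ OS) : Zs q (a * s) := by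
  obtain ⟨h, hh, k⟩ := h
  exact ⟨a * h, OS.mul_mem ha hh, by convert k.mul ha using 1; ring⟩

theorem Zs.add {q : ℕ} {s s' : S} (h : Zs q s) (h' : Zs q s') : Zs q (s + s') := by
  obtain ⟨h, hh, k⟩ := h
  obtain ⟨h', hh', k'⟩ := h'
  exact ⟨h + h', OS.add_mem hh hh', by convert k.add k' using 1; ring⟩

theorem Hs.add {q : ℕ} {s s' : S} (h : Hs q s) (h' : Zs q s') : Hs q (s + s') := by
  obtain ⟨h, hh, ⟨m, hm, e⟩, k⟩ := h
  obtain ⟨h', hh', k'⟩ := h'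
  exact ⟨h + t * h', OS.add_mem hh (OS.mul_mem t_mem hh'), ⟨m, hm, by simp [cc_t, e]⟩,
    by convert k.add k' using 1; ring⟩

theorem Ng.zs {q : ℕ} {s : S} (h : Ng q s) : Zs q s := ⟨0, OS.zero_mem, by simpa using h⟩

theorem Hs.ps {q : ℕ} {s : S} (h : Hs q s) : Hs q (ps s) := by
  obtain ⟨h, hh, ⟨m, hm, e⟩, k⟩ := h
  have : Hs q (t ^ 4 * Al.ps h) := ⟨_, ps_mem hh, ⟨m, hm, by rw [cc_ps, e]⟩, 0, 0, OS.zero_mem,
    by simp⟩
  convert (this.mul (uo_r.pow 4)).add k.ps.zs using 1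
  rw [map_sub, map_mul, map_pow, ps_t]; ring

theorem Zs.ps {q : ℕ} {s : S} (h : Zs q s) : Zs q (ps s) := by
  obtain ⟨h, hh, k⟩ := h
  refine ⟨r ^ 5 * Al.ps h, OS.mul_mem (OS.pow_mem r_mem 5) (ps_mem hh), ?_⟩
  convert k.ps using 1
  rw [map_sub, map_mul, map_pow, ps_t]; ring

/-! ## lifts -/

section lf
variable {K K' : Type*} [CommRing K] [CommRing K'] {l : K} {M q : ℕ}

/-- `s` is the series of a polynomial that lifts `y` -/
def Lf (l y : K) (s : S) : Prop :=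
  ∃ p : Polynomial ℤ, p.eval₂ (Int.castRingHom K) l = y ∧ p.eval₂ (Int.castRingHom S) L = s

theorem Lf.mem {y : K} {s : S} (h : Lf l y s) : s ∈ OS := by
  obtain ⟨p, -, rfl⟩ := h
  exact ev_mem OS (fun x => intCast_mem OS x) L_mem p

theorem Lf.add {y y' : K} {s s' : S} (h : Lf l y s) (h' : Lf l y' s') : Lf l (y + y') (s + s') := by
  obtain ⟨p, rfl, rfl⟩ := h
  obtain ⟨p', rfl, rfl⟩ := h'
  exact ⟨p + p', Polynomial.eval₂_add _ _, Polynomial.eval₂_add _ _⟩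

theorem Lf.mul {y y' : K} {s s' : S} (h : Lf l y s) (h' : Lf l y' s') : Lf l (y * y') (s * s') := by
  obtain ⟨p, rfl, rfl⟩ := h
  obtain ⟨p', rfl, rfl⟩ := h'
  exact ⟨p * p', Polynomial.eval₂_mul _ _, Polynomial.eval₂_mul _ _⟩

theorem lf_int (l : K) (n : ℤ) : Lf l n n :=
  ⟨Polynomial.C n, Polynomial.eval₂_C _ _, Polynomial.eval₂_C _ _⟩
theorem lf_nat (l : K) (n : ℕ) : Lf l n n := by simpa using lf_int l n
theorem lf_3 (l : K) : Lf l 3 3 := lf_nat l 3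
theorem lf_one (l : K) : Lf l 1 1 := by simpa using lf_int l 1
theorem lf_l (l : K) : Lf l l L := ⟨Polynomial.X, by simp, by simp⟩
theorem Lf.neg {y : K} {s : S} (h : Lf l y s) : Lf l (-y) (-s) := by
  simpa using (lf_int l (-1)).mul h
theorem Lf.sub {y y' : K} {s s' : S} (h : Lf l y s) (h' : Lf l y' s') :
    Lf l (y - y') (s - s') := by simpa [sub_eq_add_neg] using h.add h'.neg
theorem Lf.pow {y : K} {s : S} (h : Lf l y s) (n : ℕ) : Lf l (y ^ n) (s ^ n) := by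
  induction n with
  | zero => simpa using lf_one l
  | succ n ih => rw [pow_succ, pow_succ]; exact ih.mul h
theorem lf_rho (l : K) (n : ℕ) : Lf l (1 + l ^ n + l ^ (2 * n)) (1 + L ^ n + L ^ (2 * n)) :=
  ((lf_one l).add ((lf_l l).pow n)).add ((lf_l l).pow _)
theorem lf_r (l : K) : Lf l (1 + l + l ^ 2) r := by simpa [r_eq] using lf_rho l 1

theorem Lf.map {y : K} {s : S} (h : Lf l y s) (f : K →+* K') : Lf (f l) (f y) s := by
  obtain ⟨p, rfl, rfl⟩ := h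
  exact ⟨p, by rw [Polynomial.hom_eval₂, Subsingleton.elim (f.comp _) (Int.castRingHom K')], rfl⟩

theorem Lf.ps {y : K} {s : S} (h : Lf l y s) (ψ : K →+* K) (hψ : ψ l = l ^ 3) :
    Lf l (ψ y) (ps s) := by
  obtain ⟨p, rfl, rfl⟩ := h
  refine ⟨p.comp (Polynomial.X ^ 3), ?_, ?_⟩
  · rw [Polynomial.eval₂_comp, Polynomial.hom_eval₂, hψ,
      Subsingleton.elim (ψ.comp _) (Int.castRingHom K)]; simp
  · change _ = (Al.ps : S →+* S) _
    rw [Polynomial.eval₂_comp, Polynomial.hom_eval₂,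
      Subsingleton.elim (RingHom.comp _ _) (Int.castRingHom S)]; simp [ps_L']

theorem Pz.lf (h : Pz (Int.castRingHom K) l M q) (y : K) : ∃ s, Lf l y s :=
  let ⟨p, e⟩ := h.1 y; ⟨_, p, e, rfl⟩

theorem Lf.uniq (h : Pz (Int.castRingHom K) l M q) {y : K} {s s' : S} (k : Lf l y s)
    (k' : Lf l y s') : ∃ b ∈ OS, ∃ c ∈ OS, s = s' + t ^ M * b + (1 - L ^ q) * c := by
  obtain ⟨p, e, rfl⟩ := k
  obtain ⟨p', e', rfl⟩ := k'
  obtain ⟨a, b, k⟩ := h.diff (Int.castRingHom S) L (e.trans e'.symm)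
  exact ⟨_, Lf.mem (l := l) ⟨a, rfl, rfl⟩, _, Lf.mem (l := l) ⟨b, rfl, rfl⟩, by simpa [L] using k⟩

theorem Lf.ng (h : Pz (Int.castRingHom K) l 7 q) {y : K} {s s' : S} (k : Lf l y s)
    (k' : Lf l y s') : Ng q (s - s') := by
  obtain ⟨b, -, c, hc, e⟩ := k.uniq h k'
  convert ng_rel (q := q) (M := 7) (by norm_num) b hc using 1
  rw [e]; ring

/-- classes of odd rank -/
def Od (l y : K) : Prop := ∃ s, Lf l y s ∧ UO s
/-- classes with `φ = 1 / 2` -/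
def Hf (l : K) (q : ℕ) (y : K) : Prop := ∃ s, Lf l y s ∧ Hs q s
/-- classes with `φ = 0` -/
def Zf (l : K) (q : ℕ) (y : K) : Prop := ∃ s, Lf l y s ∧ Zs q s

theorem Od.mul {y y' : K} (h : Od l y) (h' : Od l y') : Od l (y * y') :=
  let ⟨_, a, b⟩ := h; let ⟨_, a', b'⟩ := h'; ⟨_, a.mul a', b.mul b'⟩
theorem od_one (l : K) : Od l 1 := ⟨1, lf_one l, uo_one⟩
theorem Od.pow {y : K} (h : Od l y) (n : ℕ) : Od l (y ^ n) := let ⟨_, a, b⟩ := h; ⟨_, a.pow n, b.pow n⟩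
theorem od_int (l : K) {n : ℤ} (h : Odd n) : Od l n := by
  obtain ⟨m, rfl⟩ := h
  exact ⟨_, lf_int l _, uo_of (intCast_mem OS _) (intCast_mem O2 m) (by simp [map_ofNat])⟩
theorem Od.map {y : K} (h : Od l y) (f : K →+* K') : Od (f l) (f y) :=
  let ⟨_, a, b⟩ := h; ⟨_, a.map f, b⟩
theorem Od.uo (h : Pz (Int.castRingHom K) l 7 q) {y : K} (o : Od l y) {s : S} (k : Lf l y s) :
    UO s := by
  obtain ⟨s', k', o⟩ := o
  obtain ⟨b, -, c, -, e⟩ := k.uniq h k'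
  exact o.congr k.mem (by simp [e, cc_t, cc_L])

theorem Hf.mul {y a : K} (h : Hf l q y) (ha : Od l a) : Hf l q (a * y) :=
  let ⟨_, a, b⟩ := h; let ⟨_, a', b'⟩ := ha; ⟨_, a'.mul a, b.mul b'⟩
theorem Hf.neg {y : K} (h : Hf l q y) : Hf l q (-y) := by
  simpa using h.mul (od_int l (n := -1) (by decide))
theorem Zf.mul (hK : Pz (Int.castRingHom K) l M q) {y : K} (h : Zf l q y) (a : K) :
    Zf l q (a * y) :=
  let ⟨_, b, c⟩ := h; let ⟨_, b'⟩ := hK.lf a; ⟨_, b'.mul b, c.mul b'.mem⟩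
theorem Zf.add {y y' : K} (h : Zf l q y) (h' : Zf l q y') : Zf l q (y + y') :=
  let ⟨_, a, b⟩ := h; let ⟨_, a', b'⟩ := h'; ⟨_, a.add a', b.add b'⟩
theorem Hf.add {y y' : K} (h : Hf l q y) (h' : Zf l q y') : Hf l q (y + y') :=
  let ⟨_, a, b⟩ := h; let ⟨_, a', b'⟩ := h'; ⟨_, a.add a', b.add b'⟩
theorem Hf.ps {y : K} (h : Hf l q y) (ψ : K →+* K) (hψ : ψ l = l ^ 3) : Hf l q (ψ y) :=
  let ⟨_, a, b⟩ := h; ⟨_, a.ps ψ hψ, b.ps⟩
theorem Zf.ps {y : K} (h : Zf l q y) (ψ : K →+* K) (hψ : ψ l = l ^ 3) : Zf l q (ψ y) :=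
  let ⟨_, a, b⟩ := h; ⟨_, a.ps ψ hψ, b.ps⟩

/-- `ℚ / ℤ_(2)` -/
abbrev Q2 := ℚ ⧸ O2.toAddSubgroup
/-- the class of `1 / 2` -/
def half : Q2 := ((1 / 2 : ℚ) : Q2)
theorem q2_eq {a b : ℚ} : (a : Q2) = b ↔ a - b ∈ O2 := QuotientAddGroup.eq_iff_sub_mem
theorem neg_half : -half = half := by
  rw [half, ← QuotientAddGroup.mk_neg, q2_eq]; norm_num

theorem phi_aux (h : Pz (Int.castRingHom K) l 7 q) (hq : 256 ∣ q) {ρ e : K} (o : Od l ρ)
    {σ ε z : S} (k : Lf l ρ σ) (k' : Lf l e ε) (hz : z ∈ OS) (n : Ng q (ε - σ * z)) :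
    (ph ((h.lf e).choose * ((h.lf ρ).choose)⁻¹) : Q2) = ph z := by
  have a := (h.lf ρ).choose_spec
  have b := (h.lf e).choose_spec
  generalize (h.lf ρ).choose = σ' at *
  generalize (h.lf e).choose = ε' at *
  obtain ⟨-, τ, hτ, eτ⟩ := o.uo h a
  have : σ'⁻¹ = τ := (PowerSeries.eq_inv_iff_mul_eq_one (fun c => by
    have := congrArg constantCoeff eτ
    simp [c] at this)).2 (by rw [mul_comm, eτ]) |>.symm
  rw [this, q2_eq, ← map_sub]
  refine Ng.ph hq ?_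
  convert (((b.ng h k').add n).add ((k.ng h a).mul hz)).mul hτ using 1
  linear_combination z * eτ

open Classical in
/-- the invariant `φ (e / (ρ ρ³(7 L)))` -/
def Phi (h : Pz (Int.castRingHom K) l 7 q) (ρ : K) : K →+ Q2 :=
  if o : 256 ∣ q ∧ Od l ρ then
    AddMonoidHom.mk' (fun e => (ph ((h.lf e).choose * ((h.lf ρ).choose)⁻¹) : Q2)) fun e e' => by
      obtain ⟨σ, k, m, τ, hτ, eτ⟩ := id o.2
      obtain ⟨ε, a⟩ := h.lf e
      obtain ⟨ε', a'⟩ := h.lf e'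
      have n : ∀ x : S, Ng q (x - σ * (τ * x)) := fun x =>
        ⟨0, 0, OS.zero_mem, by linear_combination -x * eτ⟩
      rw [phi_aux h o.1 o.2 k a (OS.mul_mem hτ a.mem) (n _),
        phi_aux h o.1 o.2 k a' (OS.mul_mem hτ a'.mem) (n _),
        phi_aux h o.1 o.2 k (a.add a') (OS.mul_mem hτ (a.add a').mem) (n _), mul_add, map_add,
        QuotientAddGroup.mk_add]
  else 0

variable (h : Pz (Int.castRingHom K) l 7 q) (hq : 256 ∣ q) {ρ : K} (o : Od l ρ)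
include hq o

theorem Phi_eq {e : K} {σ ε z : S} (k : Lf l ρ σ) (k' : Lf l e ε) (hz : z ∈ OS)
    (n : Ng q (ε - σ * z)) : Phi h ρ e = (ph z : ℚ) := by
  rw [Phi, dif_pos ⟨hq, o⟩]; exact phi_aux h hq o k k' hz n

theorem Phi_rho {a : K} {z : S} (k : Lf l a z) : Phi h ρ (ρ * a) = (ph z : ℚ) :=
  let ⟨_, k', _⟩ := id o
  Phi_eq h hq o k' (k'.mul k) k.mem ⟨0, 0, OS.zero_mem, by simp⟩

theorem Phi_ex (e : K) : ∃ σ ε, ∃ z ∈ OS, Lf l ρ σ ∧ Lf l e ε ∧ ε = σ * z ∧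
    Phi h ρ e = (ph z : ℚ) := by
  obtain ⟨σ, k, -, τ, hτ, eτ⟩ := id o
  obtain ⟨ε, a⟩ := h.lf e
  have e' : ε = σ * (τ * ε) := by linear_combination -ε * eτ
  exact ⟨σ, ε, _, OS.mul_mem hτ a.mem, k, a, e', Phi_eq h hq o k a (OS.mul_mem hτ a.mem)
    ⟨0, 0, OS.zero_mem, by rw [← e']; simp⟩⟩

/-- stabilisation -/
theorem Phi_mul {σ : K} (o' : Od l σ) (e : K) : Phi h (σ * ρ) (σ * e) = Phi h ρ e := by
  obtain ⟨s, ε, z, hz, k, k', e', f⟩ := Phi_ex h hq o e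
  obtain ⟨s', k'', -⟩ := id o'
  rw [f]
  exact Phi_eq h hq (o'.mul o) (k''.mul k) (k''.mul k') hz ⟨0, 0, OS.zero_mem, by rw [e']; ring⟩

/-- the indeterminacy -/
theorem Phi_ind (ψ : K →+* K) (hψ : ψ l = l ^ 3) (b : K) :
    Phi h ρ (ρ * (3 ^ 7 * ψ b - (1 + l + l ^ 2) ^ 7 * b)) = 0 := by
  obtain ⟨z, k⟩ := h.lf b
  rw [Phi_rho h hq o ((((lf_3 l).pow 7).mul (k.ps ψ hψ)).sub (((lf_r l).pow 7).mul k))]
  exact (QuotientAddGroup.eq_zero_iff _).2 (ph_ind k.mem)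

/-- bounded denominators -/
theorem Phi_32 (e : K) : 32 • Phi h ρ e = 0 := by
  obtain ⟨s, ε, z, hz, -, -, -, f⟩ := Phi_ex h hq o e
  rw [f, ← QuotientAddGroup.mk_nsmul]
  exact (QuotientAddGroup.eq_zero_iff _).2 (by simpa using ph_den hz)




end lf

section orb
variable {A K : Type*} [CommRing A] [CommRing K] {l : A} {q n : ℕ}



end orb

end Crest.Agent.N218.Al
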