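import Crest.Agent.N218.Al.Phi

/-!
# Row 218 (helper23): orbit loops, induced classes, the value on the piece (series level)
-/

set_option autoImplicit false

open PowerSeries Finset

noncomputable section

namespace Crest.Agent.N218.Al

/-- the line bundle -/
def L : S := 1 - t

theorem L_mem : L ∈ OS := OS.sub_mem OS.one_mem t_mem

theorem r_mem : r ∈ OS := OS.add_mem (OS.sub_mem (ofNat_mem OS 3)
  (OS.mul_mem (ofNat_mem OS 3) t_mem)) (OS.pow_mem t_mem 2)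

theorem r_eq : r = 1 + L + L ^ 2 := by rw [r, L]; ring

theorem ps_L' : ps L = L ^ 3 := ps_L

theorem lc_nat (n : ℕ) [n.AtLeastTwo] (h : S) : lc (ofNat(n) * h) = ofNat(n) * lc h := by
  rw [← lc_C, map_ofNat]

theorem ph_nat (n : ℕ) [n.AtLeastTwo] (h : S) : ph (ofNat(n) * h) = ofNat(n) * ph h := by
  rw [← ph_C, map_ofNat]

/-- `x ≡ 1` modulo `(c, t ^ n)` -/
def One (c : S) (n : ℕ) (x : S) : Prop := ∃ a ∈ OS, ∃ b ∈ OS, x = 1 + c * a + t ^ n * b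

theorem One.pow {c x : S} {n : ℕ} (hc : c ∈ OS) (h : One c n x) (k : ℕ) : One c n (x ^ k) := by
  obtain ⟨a, ha, b, hb, e⟩ := h
  have xm : x ∈ OS := e ▸ OS.add_mem (OS.add_mem OS.one_mem (OS.mul_mem hc ha))
    (OS.mul_mem (OS.pow_mem t_mem n) hb)
  induction k with
  | zero => exact ⟨0, OS.zero_mem, 0, OS.zero_mem, by simp⟩
  | succ k ih =>
    obtain ⟨a', ha', b', hb', e'⟩ := ih
    refine ⟨a + a' * x, OS.add_mem ha (OS.mul_mem ha' xm), b + b' * x,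
      OS.add_mem hb (OS.mul_mem hb' xm), ?_⟩
    rw [pow_succ, e']; linear_combination e

theorem One.sq {c x : S} {n : ℕ} (hc : c ∈ OS) (h : One (2 * c) n x) :
    One (2 * (2 * c)) n (x ^ 2) := by
  obtain ⟨a, ha, b, hb, e⟩ := h
  have h2 := ofNat_mem OS 2
  refine ⟨a + c * a ^ 2, OS.add_mem ha (OS.mul_mem hc (OS.pow_mem ha 2)),
    2 * (1 + 2 * c * a) * b + t ^ n * b ^ 2, OS.add_mem (OS.mul_mem (OS.mul_mem h2
      (OS.add_mem OS.one_mem (OS.mul_mem (OS.mul_mem h2 hc) ha))) hb)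
      (OS.mul_mem (OS.pow_mem t_mem n) (OS.pow_mem hb 2)), ?_⟩
  rw [e]; ring

theorem One.mono {c x : S} {n m : ℕ} (h : One c n x) (hm : m ≤ n) : One c m x := by
  obtain ⟨a, ha, b, hb, e⟩ := h
  obtain ⟨k, rfl⟩ := Nat.exists_eq_add_of_le hm
  exact ⟨a, ha, t ^ k * b, OS.mul_mem (OS.pow_mem t_mem k) hb, by rw [e]; ring⟩

theorem one_two (j : ℕ) : One 2 (2 ^ j) (L ^ 2 ^ j) := by
  have h2 := ofNat_mem OS 2
  induction j with
  | zero => exact ⟨0, OS.zero_mem, -1, OS.neg_mem OS.one_mem, by rw [L]; ring⟩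
  | succ j ih =>
    obtain ⟨a, ha, b, hb, e⟩ := ih
    refine ⟨2 * a + 2 * a ^ 2 + (1 + 2 * a) * t ^ 2 ^ j * b, OS.add_mem (OS.add_mem
      (OS.mul_mem h2 ha) (OS.mul_mem h2 (OS.pow_mem ha 2))) (OS.mul_mem (OS.mul_mem
      (OS.add_mem OS.one_mem (OS.mul_mem h2 ha)) (OS.pow_mem t_mem _)) hb), b ^ 2,
      OS.pow_mem hb 2, ?_⟩
    rw [pow_succ 2, pow_mul, pow_mul, e]; ring

theorem one_16 {q : ℕ} (h : 16 ∣ q) : One 2 16 (L ^ q) := by
  obtain ⟨n, rfl⟩ := h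
  rw [pow_mul]; exact (one_two 4).pow (ofNat_mem OS 2) n

theorem one_8 {q : ℕ} (h : 8 ∣ q) : One 2 7 (L ^ q) := by
  obtain ⟨n, rfl⟩ := h
  rw [pow_mul]; exact ((one_two 3).pow (ofNat_mem OS 2) n).mono (by norm_num)

theorem one_256 {q : ℕ} (h : 256 ∣ q) : One 64 7 (L ^ q) := by
  obtain ⟨n, rfl⟩ := h
  have h2 := ofNat_mem OS 2
  have m := fun {x : S} (h : x ∈ OS) => OS.mul_mem h2 h
  have a : One (2 * 1) 7 (L ^ 8) := by rw [mul_one]; exact one_8 dvd_rfl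
  have o := OS.one_mem
  have := (((((a.sq o).sq (m o)).sq (m (m o))).sq (m (m (m o)))).sq (m (m (m (m o))))).pow
    (m (m (m (m (m (m o)))))) n
  convert this using 1
  · norm_num
  · ring


/-- `φ` kills the indeterminacy -/
theorem ph_ind {b : S} (hb : b ∈ OS) : ph (3 ^ 7 * ps b - r ^ 7 * b) ∈ O2 := key b ▸ lc_mem hb

/-- geometric sums -/
def N (x : S) (m : ℕ) : S := ∑ i ∈ range m, x ^ i

theorem N_mem {x : S} (h : x ∈ OS) (m : ℕ) : N x m ∈ OS := OS.sum_mem fun i _ => OS.pow_mem h i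

theorem mul_N (x : S) (m : ℕ) : (1 - x) * N x m = 1 - x ^ m := mul_neg_geom_sum x m

theorem t_N (m : ℕ) : t * N L m = 1 - L ^ m := by rw [← mul_N, L]; ring

theorem N_two (x : S) (m : ℕ) : N x (m + m) = (1 + x ^ m) * N x m := by
  rw [N, sum_range_add, add_mul, one_mul, N, mul_sum]; simp only [pow_add]

theorem N_eq (m : ℕ) : ∃ c ∈ OS, N L m = m + t * c := by
  induction m with
  | zero => exact ⟨0, OS.zero_mem, by simp [N]⟩
  | succ m ih =>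
    obtain ⟨c, hc, e⟩ := ih
    refine ⟨c - N L m, OS.sub_mem hc (N_mem L_mem m), ?_⟩
    rw [N, sum_range_succ, ← N]; push_cast; linear_combination e + t_N m

theorem exists_inv {x : S} (h : constantCoeff x ≠ 0) : ∃ y, x * y = 1 :=
  (isUnit_iff_constantCoeff.2 (Ne.isUnit h)).exists_right_inv

theorem cc_L : constantCoeff L = 1 := by simp [L, cc_t]

theorem N_inv {m : ℕ} (h : m ≠ 0) : ∃ y, N L m * y = 1 := by
  obtain ⟨c, -, e⟩ := N_eq m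
  exact exists_inv (by simpa [e, cc_t] using h)

theorem one_sub_ne {m : ℕ} (h : m ≠ 0) : 1 - L ^ m ≠ 0 := by
  obtain ⟨y, hy⟩ := N_inv h
  rw [← t_N]
  exact mul_ne_zero t_ne (left_ne_zero_of_mul_eq_one hy)

/-- the classes `d` whose orbit loop has `φ = 0` -/
def Gd (q : ℕ) (d : S) : Prop := ∃ F, (1 - L ^ q) * F = d ∧ lc F - lc d / 2 ∈ O2

/-- **ORB** -/
theorem orb {q : ℕ} (hq : 256 ∣ q) (h0 : q ≠ 0) {e d b F : S} (he : e ∈ OS) (hd : d ∈ OS)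
    (h : (1 - L ^ q) * e = 3 ^ 6 * ps d - r ^ 7 * d + t ^ 7 * b) (hF : (1 - L ^ q) * F = d) :
    ph e - (lc F - lc d / 2) ∈ O2 := by
  obtain ⟨a, ha, c, -, e1⟩ := one_256 hq
  obtain ⟨y, hy⟩ := N_inv h0
  have hN := t_N q
  have ne := one_sub_ne h0
  have hP := congrArg ps hF
  rw [map_mul, map_sub, map_one, map_pow, ps_L', ← pow_mul, mul_comm 3, pow_mul] at hP
  have Ym := OS.pow_mem L_mem q
  have Nm := N_mem L_mem q
  generalize L ^ q = Y at *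
  generalize N L q = M at *
  obtain ⟨G, hG⟩ : ∃ G, G = 3 ^ 7 * ps (2 * F - d) - r ^ 7 * (2 * F - d) := ⟨_, rfl⟩
  have kG : ph G = 2 * lc F - lc d := by rw [hG, key, map_sub, lc_nat]
  rw [map_sub, map_mul, map_ofNat] at hG
  obtain ⟨m, hm⟩ : ∃ m, m = (1 - Y - 3 * Y ^ 2) * e + 2 * r ^ 7 * d * (1 + Y) := ⟨_, rfl⟩
  have mm : m ∈ OS := hm ▸ OS.add_mem (OS.mul_mem (OS.sub_mem (OS.sub_mem OS.one_mem Ym)
    (OS.mul_mem (ofNat_mem OS 3) (OS.pow_mem Ym 2))) he) (OS.mul_mem (OS.mul_mem (OS.mul_mem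
      (ofNat_mem OS 2) (OS.pow_mem r_mem 7)) hd) (OS.add_mem OS.one_mem Ym))
  have k1 : (1 + Y + Y ^ 2) * (G - 2 * e) =
      (1 - Y) * m - t ^ 6 * (3 * (1 + Y ^ 3) * b * y) := by
    apply mul_left_cancel₀ ne
    rw [hG, hm]
    linear_combination 2 * 3 ^ 7 * hP - 2 * r ^ 7 * (1 + Y + Y ^ 2) * hF -
      3 * (1 + Y ^ 3) * h - t ^ 6 * (3 * (1 + Y ^ 3) * b * y) * hN +
      t ^ 7 * (3 * (1 + Y ^ 3) * b) * hy
  obtain ⟨x, hx⟩ : ∃ x, x = M * (2 + Y) := ⟨_, rfl⟩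
  have xm : x ∈ OS := hx ▸ OS.mul_mem Nm (OS.add_mem (ofNat_mem OS 2) Ym)
  obtain ⟨s, hs'⟩ : ∃ s, s = ∑ i ∈ range 7, 3 ^ i * (t * x) ^ (7 - 1 - i) := ⟨_, rfl⟩
  have sm : s ∈ OS := hs' ▸ OS.sum_mem fun i _ => OS.mul_mem (OS.pow_mem (ofNat_mem OS 3) _)
    (OS.pow_mem (OS.mul_mem t_mem xm) _)
  have k2 : s * (1 + Y + Y ^ 2) = 3 ^ 7 - (t * x) ^ 7 := by
    rw [hs', ← geom_sum₂_mul, hx]
    congr 1; linear_combination (2 + Y) * hN
  have k3 : 2187 * (G - 2 * e) = 2 * (32 * (-(a * s * m))) + t ^ 6 *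
      (t * x ^ 7 * (G - 2 * e) - s * (3 * (1 + Y ^ 3) * b * y) - t * c * s * m) := by
    linear_combination s * k1 - (G - 2 * e) * k2 - s * m * e1
  have k4 := congrArg ph k3
  rw [map_add, ph_t6, ph_nat, ph_nat 2, map_sub, ph_nat, kG] at k4
  refine of_odd_mul (n := 2187) (by decide) ?_
  have := O2.neg_mem (ph_32 (OS.neg_mem (OS.mul_mem (OS.mul_mem ha sm) mm)))
  convert this using 1; push_cast; linarith

theorem orb_mem {q : ℕ} (hq : 256 ∣ q) (h0 : q ≠ 0) {e d b : S} (he : e ∈ OS) (hd : d ∈ OS)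
    (h : (1 - L ^ q) * e = 3 ^ 6 * ps d - r ^ 7 * d + t ^ 7 * b) (hG : Gd q d) : ph e ∈ O2 := by
  obtain ⟨F, hF, k⟩ := hG
  simpa using O2.add_mem (orb hq h0 he hd h hF) k

theorem Gd.zero (q : ℕ) : Gd q 0 := ⟨0, by simp, by simp⟩

theorem Gd.add {q : ℕ} {d d' : S} (h : Gd q d) (h' : Gd q d') : Gd q (d + d') := by
  obtain ⟨F, hF, k⟩ := h
  obtain ⟨F', hF', k'⟩ := h'
  refine ⟨F + F', by rw [mul_add, hF, hF'], ?_⟩
  convert O2.add_mem k k' using 1; simp only [map_add]; ring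

theorem Gd.neg {q : ℕ} {d : S} (h : Gd q d) : Gd q (-d) := by
  obtain ⟨F, hF, k⟩ := h
  refine ⟨-F, by rw [mul_neg, hF], ?_⟩
  convert O2.neg_mem k using 1; simp only [map_neg]; ring

theorem Gd.sum {q : ℕ} {ι : Type*} (s : Finset ι) {d : ι → S} (h : ∀ i ∈ s, Gd q (d i)) :
    Gd q (∑ i ∈ s, d i) := sum_induction d (Gd q) (fun _ _ => Gd.add) (Gd.zero q) h

theorem Gd.t7 {q : ℕ} (h0 : q ≠ 0) (b : S) : Gd q (t ^ 7 * b) := by
  obtain ⟨y, hy⟩ := N_inv h0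
  refine ⟨t ^ 6 * (b * y), by linear_combination -t ^ 6 * b * y * t_N q + t ^ 7 * b * hy, ?_⟩
  simp [lc_t6, lc_t7]

theorem lc_half {n : ℕ} {d a : S} (b : S) (ha : a ∈ OS) (h : t ^ n * d = 2 * a + t ^ (n + 7) * b) :
    lc d / 2 ∈ O2 := by
  have : lc d = 2 * coeff (6 + n) (a * w) := by
    rw [lc_apply, ← co_shift 6 n, ← mul_assoc, h, add_mul, map_add, mul_assoc (t ^ _),
      show n + 7 = 6 + n + 1 by ring, co_mul, add_zero, mul_assoc,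
      show (2 : S) = C 2 from (map_ofNat C 2).symm, coeff_C_mul]
  rw [this, mul_div_cancel_left₀ _ two_ne_zero]
  exact OS.mul_mem ha w_mem _

theorem Gd.rel {q : ℕ} (hq : 8 ∣ q) {b : S} (hb : b ∈ OS) : Gd q ((1 - L ^ q) * b) := by
  obtain ⟨a, ha, c, -, e⟩ := one_8 hq
  exact ⟨b, rfl, O2.sub_mem (lc_mem hb) (lc_half (n := 0) (-(c * b))
    (OS.neg_mem (OS.mul_mem ha hb)) (by rw [e]; ring))⟩

/-- the same on the level of a subgroup of order `h` -/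
def Gh (h : ℕ) (a : S) : Prop := ∃ F, (1 - L ^ h) * F = a ∧ lc F ∈ O2

/-- classes induced from a proper subgroup -/
theorem Gh.ind {h m : ℕ} (hm : 8 ∣ h * m) {a : S} (ha : a ∈ OS) (k : Gh h a) :
    Gd (h * (m + m)) (N (L ^ h) (m + m) * a) := by
  obtain ⟨F, hF, k⟩ := k
  obtain ⟨x, hx, c, -, e⟩ := one_8 hm
  refine ⟨F, by rw [pow_mul, ← mul_N, ← hF]; ring, O2.sub_mem k (lc_half (n := 0)
    (c * N (L ^ h) m * a) (OS.mul_mem (OS.mul_mem (OS.add_mem OS.one_mem hx)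
      (N_mem (OS.pow_mem L_mem h) m)) ha) ?_)⟩
  rw [N_two, ← pow_mul, e]; ring

theorem Gh.one {a : S} (ha : a ∈ OS) : Gh 1 (t * a) := ⟨a, by rw [L]; ring, lc_mem ha⟩

theorem Gh.core {s n j : ℕ} (h0 : s ≠ 0) {a c b b' g g' : S} (hb : b' ∈ OS) (hg : g' ∈ OS)
    (h : t ^ n * (t * a) = (1 - L ^ s) ^ (j + 1) * c + t ^ (n + 7) * b + (1 - L ^ (s + s)) * b')
    (k : (1 - L ^ s) ^ j * c * (t * (63 * t - 62)) = t ^ (n + 7) * g + (1 + L ^ s) * g') :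
    Gh (s + s) (t * a) := by
  obtain ⟨y, hy⟩ := N_inv h0
  obtain ⟨z, hz⟩ := exists_inv (x := 1 + L ^ s) (by simp [cc_L])
  have hN := t_N s
  have ne := mul_ne_zero (one_sub_ne h0) (left_ne_zero_of_mul_eq_one hz)
  rw [pow_add L] at h
  rw [Gh, pow_add]
  generalize L ^ s = Y at *
  generalize N L s = M at *
  have hF : (1 - Y * Y) * (a * y * z) = t * a := by
    linear_combination -(1 + Y) * a * y * z * hN + t * a * (1 + Y) * z * hy + t * a * hz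
  refine ⟨a * y * z, hF, ?_⟩
  generalize a * y * z = F at *
  have : t ^ n * (F * w) = u ^ 3 * g' + b' * w +
      t ^ (6 + n + 1) * (u ^ 3 * g * z + b * u ^ 3 * (63 * t - 62) * y * z) := by
    apply mul_left_cancel₀ ne
    rw [w, show 6 + n + 1 = n + 7 by ring]
    linear_combination t ^ n * (u ^ 3 * (t * (63 * t - 62))) * hF +
      (u ^ 3 * (t * (63 * t - 62))) * h + (1 - Y) * u ^ 3 * k -
      t ^ (n + 7) * (u ^ 3 * g * (1 - Y) + b * u ^ 3 * (63 * t - 62) * y * (1 - Y)) * hz +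
      t ^ (n + 7) * (b * u ^ 3 * (63 * t - 62)) * (y * hN - t * hy)
  rw [lc_apply, ← co_shift 6 n, this, map_add, co_mul, add_zero]
  exact OS.add_mem (OS.mul_mem (OS.pow_mem u_mem 3) hg) (OS.mul_mem hb w_mem) _

theorem Gh.two {a : S} (ha : a ∈ OS) : Gh 2 (t * a) := by
  have p := fun n => OS.pow_mem t_mem n
  have m := fun (n : ℕ) {x : S} (h : x ∈ OS) => OS.mul_mem (natCast_mem OS n) h
  refine Gh.core (s := 1) (n := 0) (j := 0) (c := a) (b := 0) (b' := 0) (g := a)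
    (g' := a * ((16 : ℕ) * t ^ 2 + (8 : ℕ) * t ^ 3 + (4 : ℕ) * t ^ 4 + (2 : ℕ) * t ^ 5 + t ^ 6 -
      (31 : ℕ) * t)) one_ne_zero OS.zero_mem (OS.mul_mem ha (OS.sub_mem (OS.add_mem (OS.add_mem
      (OS.add_mem (OS.add_mem (m 16 (p 2)) (m 8 (p 3))) (m 4 (p 4))) (m 2 (p 5))) (p 6))
      (m 31 t_mem))) (by rw [L]; ring) (by rw [L]; push_cast; ring)

/-- the ideal `(t ^ n, 1 + Y)` -/
def J (Y : S) (n : ℕ) (x : S) : Prop := ∃ g ∈ OS, ∃ g' ∈ OS, x = t ^ n * g + (1 + Y) * g'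

theorem J.mul {Y x y : S} {n m : ℕ} (hY : Y ∈ OS) (h : J Y n x) (h' : J Y m y) :
    J Y (n + m) (x * y) := by
  obtain ⟨a, ha, b, hb, e⟩ := h
  obtain ⟨c, hc, d, hd, e'⟩ := h'
  have p := fun n => OS.pow_mem t_mem n
  refine ⟨a * c, OS.mul_mem ha hc, t ^ n * a * d + b * (t ^ m * c + (1 + Y) * d), OS.add_mem
    (OS.mul_mem (OS.mul_mem (p n) ha) hd) (OS.mul_mem hb (OS.add_mem (OS.mul_mem (p m) hc)
      (OS.mul_mem (OS.add_mem OS.one_mem hY) hd))), by rw [e, e']; ring⟩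

theorem J.of {Y x : S} (h : x ∈ OS) : J Y 0 x := ⟨x, h, 0, OS.zero_mem, by ring⟩

theorem J.pow {Y x : S} {n : ℕ} (hY : Y ∈ OS) (h : J Y n x) (k : ℕ) : J Y (n * k) (x ^ k) := by
  induction k with
  | zero => simpa using J.of OS.one_mem
  | succ k ih => rw [pow_succ, mul_add_one]; exact ih.mul hY h

theorem J.two (s : ℕ) : J (L ^ (s + s)) 2 2 := by
  obtain ⟨c, hc, e⟩ := N_eq (s + s)
  have sm := OS.mul_mem (natCast_mem OS s) t_mem
  refine ⟨c * (1 + s * t) + 2 * s ^ 2, OS.add_mem (OS.mul_mem hc (OS.add_mem OS.one_mem sm))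
    (OS.mul_mem (ofNat_mem OS 2) (OS.pow_mem (natCast_mem OS s) 2)), 1 + s * t,
    OS.add_mem OS.one_mem sm, ?_⟩
  have := t_N (s + s)
  rw [e] at this; push_cast at this
  linear_combination -(1 + s * t) * this

theorem J.sub (s : ℕ) : J (L ^ (s + s)) 2 (1 - L ^ (s + s)) := by
  obtain ⟨a, ha, b, hb, e⟩ := J.two s
  exact ⟨a, ha, b - 1, OS.sub_mem hb OS.one_mem, by linear_combination e⟩

theorem J.ev (s : ℕ) {x y : S} (hx : x ∈ OS) (hy : y ∈ OS) : J (L ^ (s + s)) 1 (2 * x + t * y) := by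
  obtain ⟨a, ha, b, hb, e⟩ := J.two s
  exact ⟨t * a * x + y, OS.add_mem (OS.mul_mem (OS.mul_mem t_mem ha) hx) hy, b * x,
    OS.mul_mem hb hx, by linear_combination x * e⟩

theorem J.w (s : ℕ) : J (L ^ (s + s)) 2 (t * (63 * t - 62)) := by
  have a := J.ev s OS.zero_mem OS.one_mem
  have b := J.ev s (OS.neg_mem (ofNat_mem OS 31)) (ofNat_mem OS 63)
  convert a.mul (OS.pow_mem L_mem _) b using 1; ring

/-- `|K| = 4 s`: Euler class `(1 - sgn) ^ 5`, `U' = 11 L`, even rank -/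
theorem Gh.four {s : ℕ} (h0 : s ≠ 0) {a x y b b' : S} (hx : x ∈ OS) (hy : y ∈ OS) (hb : b' ∈ OS)
    (h : t ^ 4 * (t * a) = (1 - L ^ (s + s)) ^ 5 * (2 * x + t * y) + t ^ 11 * b +
      (1 - L ^ (s + s + (s + s))) * b') : Gh (s + s + (s + s)) (t * a) := by
  have Y := OS.pow_mem L_mem (s + s)
  obtain ⟨g, -, g', hg, e⟩ := (((J.sub s).pow Y 4).mul Y (J.ev s hx hy)).mul Y (J.w s)
  exact Gh.core (n := 4) (j := 4) (by omega) hb hg h e


/-- `K = G` -/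
theorem Gh.top {s n j : ℕ} (hs : 16 ∣ s) (hn : n ≤ 9) {d c b b' : S} (hc : c ∈ OS) (hb : b' ∈ OS)
    (h : t ^ n * d = (1 - L ^ s) ^ (j + 1) * c + t ^ (n + 7) * b + (1 - L ^ (s + s)) * b')
    (k : Gh (s + s) d) : Gd (s + s) d := by
  obtain ⟨F, hF, k⟩ := k
  obtain ⟨x, hx, y, -, e⟩ := (one_16 hs).mono (show n + 7 ≤ 16 by omega)
  have Y := OS.pow_mem L_mem s
  have m : (1 - L ^ s) ^ j * c + (1 + L ^ s) * b' ∈ OS := OS.add_mem (OS.mul_mem (OS.pow_mem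
    (OS.sub_mem OS.one_mem Y) j) hc) (OS.mul_mem (OS.add_mem OS.one_mem Y) hb)
  refine ⟨F, hF, O2.sub_mem k (lc_half (n := n)
    (b - y * ((1 - L ^ s) ^ j * c + (1 + L ^ s) * b')) (OS.neg_mem (OS.mul_mem hx m)) ?_)⟩
  rw [h, pow_add L]
  linear_combination -((1 - L ^ s) ^ j * c + (1 + L ^ s) * b') * e

/-- the sum of the inverse squares of the odd numbers below `2 ^ (k + 1)` -/
theorem sum_inv_sq (k : ℕ) : ∃ m ∈ O2,
    ∑ j ∈ range (2 ^ k), (1 : ℚ) / (2 * j + 1) ^ 2 = 2 ^ k * (2 * m + 1) := by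
  induction k with
  | zero => exact ⟨0, O2.zero_mem, by simp⟩
  | succ k ih =>
    obtain ⟨m, hm, e⟩ := ih
    refine ⟨m + ∑ j ∈ range (2 ^ k), ((-(2 * j + 1 + 2 ^ k) : ℤ) : ℚ) /
      (((2 * j + 1) ^ 2 * (2 * (2 ^ k + j) + 1) ^ 2 : ℤ) : ℚ), O2.add_mem hm (O2.sum_mem fun j _ =>
        div_mem _ (((odd_two_mul_add_one _).pow).mul (odd_two_mul_add_one _).pow)), ?_⟩
    have : ∀ j ∈ range (2 ^ k), (1 : ℚ) / (2 * ((2 ^ k + j : ℕ) : ℚ) + 1) ^ 2 =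
        1 / (2 * j + 1) ^ 2 + 2 ^ (k + 2) * (((-(2 * j + 1 + 2 ^ k) : ℤ) : ℚ) /
          (((2 * j + 1) ^ 2 * (2 * (2 ^ k + j) + 1) ^ 2 : ℤ) : ℚ)) := fun j _ => by
      push_cast; field_simp; ring
    rw [pow_succ 2, mul_two, sum_range_add, sum_congr rfl this, sum_add_distrib, e, ← mul_sum]
    ring

end Crest.Agent.N218.Al

end
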